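import Vale.Agent.Lib.P084T.H2
import Vale.Agent.Lib.P084T.H3
import Vale.Agent.Lib.P084T.H4
import Vale.Agent.Lib.P084T.H5

set_option linter.unusedSectionVars false

/-! # P084T part H6. See `notes/P084_blueprint.md`, section H6. -/

open MeasureTheory Set Filter Topology
open scoped RealInnerProductSpace ENNReal NNReal

namespace Vale.Agent.Lib.P084T

variable {E : Type*} [NormedAddCommGroup E] [InnerProductSpace ℝ E] [FiniteDimensional ℝ E]
  [CompleteSpace E] [MeasurableSpace E] [BorelSpace E]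
variable {N N' : NF E}

/-- The pointwise inequality on a typical chord. -/
theorem pointwise_ineq (R : RadIso N N') (hSC : StrictC N)
    {a b ξ ζ : E} (c : Chord R a b ξ ζ)
    (hA : AlexAt N ξ) (hA' : AlexAt N' ζ) {τ : ℝ} (hτ : τ ∈ Icc (0 : ℝ) 1) :
    (ell R a b) ^ (1 - τ) * (ell R b a) ^ τ ≤
      |((1 - τ) • M0 R a b ξ ζ + τ • M1 R a b ξ ζ).det| := by
  obtain ⟨Q, hQ, hQs, hQ0⟩ := hA
  obtain ⟨Q', hQ', hQ's, hQ'0⟩ := hA'
  obtain ⟨hd0, hr0⟩ := det_M0 R hSC c
  obtain ⟨hd1, hr1⟩ := det_M1 R hSC c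
  set A0 := M0 R a b ξ ζ with hA0
  set A1 := M1 R a b ξ ζ with hA1
  have hdet0 : A0.det ≠ 0 := by
    intro h
    rw [h, abs_zero] at hd0
    exact hr0.ne hd0
  have hdet1 : A1.det ≠ 0 := by
    intro h
    rw [h, abs_zero] at hd1
    exact hr1.ne hd1
  -- the inverse of `A0`
  let e0 : E ≃L[ℝ] E := (LinearMap.equivOfDetNeZero (A0 : E →ₗ[ℝ] E) hdet0).toContinuousLinearEquiv
  have he0 : ∀ x, e0 x = A0 x := fun x => rfl
  let Ainv : E →L[ℝ] E := (e0.symm : E →L[ℝ] E)
  have hinv1 : A0.comp Ainv = ContinuousLinearMap.id ℝ E := by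
    ext x
    show A0 (e0.symm x) = x
    rw [← he0]
    exact e0.apply_symm_apply x
  have hinv2 : Ainv.comp A0 = ContinuousLinearMap.id ℝ E := by
    ext x
    show e0.symm (A0 x) = x
    rw [← he0]
    exact e0.symm_apply_apply x
  let P : E →L[ℝ] E := A1.comp Ainv
  let S : E →L[ℝ] E := A0.comp (Q.comp (ContinuousLinearMap.adjoint A0))
  have hdet_comp : ∀ X Y : E →L[ℝ] E, (X.comp Y).det = X.det * Y.det := fun X Y =>
    LinearMap.det_comp (X : E →ₗ[ℝ] E) (Y : E →ₗ[ℝ] E)
  have hdetinv : Ainv.det * A0.det = 1 := by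
    rw [← hdet_comp, hinv2]
    exact LinearMap.det_id
  have hdetP : P.det * A0.det = A1.det := by
    have : P.det = A1.det * Ainv.det := hdet_comp _ _
    rw [this, mul_assoc, hdetinv, mul_one]
  have hPne : P.det ≠ 0 := by
    intro h
    rw [h, zero_mul] at hdetP
    exact hdet1 hdetP.symm
  have hSv : ∀ v w, ⟪S v, w⟫ = ⟪Q (ContinuousLinearMap.adjoint A0 v), ContinuousLinearMap.adjoint A0 w⟫ := by
    intro v w
    show ⟪A0 (Q (ContinuousLinearMap.adjoint A0 v)), w⟫ = _
    rw [← ContinuousLinearMap.adjoint_inner_right]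
  have hSsym : ∀ v w, ⟪S v, w⟫ = ⟪v, S w⟫ := by
    intro v w
    have h1 : ⟪v, S w⟫ = ⟪S w, v⟫ := real_inner_comm _ _
    rw [h1, hSv, hSv, hQs]
    exact real_inner_comm _ _
  have hS0 : ∀ v, 0 ≤ ⟪S v, v⟫ := by
    intro v
    rw [hSv]
    exact hQ0 _
  have hPS : Q' = P.comp S := by
    have h1 := Q_relation R hSC c hQ hQs hQ' hQ's
    rw [← hA0, ← hA1] at h1
    rw [h1]
    ext x
    show A1 (Q (ContinuousLinearMap.adjoint A0 x)) = A1 (Ainv (A0 (Q (ContinuousLinearMap.adjoint A0 x))))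
    have h2 : Ainv (A0 (Q (ContinuousLinearMap.adjoint A0 x))) = Q (ContinuousLinearMap.adjoint A0 x) := by
      have := congrArg (fun f : E →L[ℝ] E => f (Q (ContinuousLinearMap.adjoint A0 x))) hinv2
      simpa using this
    rw [h2]
  have hker : ∀ η, Q' η = 0 → ContinuousLinearMap.adjoint P η = η := by
    intro η hη
    have h1 := lemma_S R hSC c hQ' hQ's hη
    rw [← hA0, ← hA1] at h1
    refine ext_inner_right ℝ fun w => ?_
    rw [ContinuousLinearMap.adjoint_inner_left]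
    show ⟪η, A1 (Ainv w)⟫ = ⟪η, w⟫
    rw [← ContinuousLinearMap.adjoint_inner_left, h1, ContinuousLinearMap.adjoint_inner_left]
    congr 1
    have := congrArg (fun f : E →L[ℝ] E => f w) hinv1
    simpa using this
  have key := la_spectrum hSsym hS0 hQ's hQ'0 hPS hPne hker hτ
  have hfact : (1 - τ) • A0 + τ • A1 = ((1 - τ) • ContinuousLinearMap.id ℝ E + τ • P).comp A0 := by
    ext x
    have h2 : P (A0 x) = A1 x := by
      show A1 (Ainv (A0 x)) = A1 x
      have := congrArg (fun f : E →L[ℝ] E => f x) hinv2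
      have h3 : Ainv (A0 x) = x := by simpa using this
      rw [h3]
    simp [h2]
  rw [hfact, hdet_comp, abs_mul]
  have habsP : |P.det| * ell R a b = ell R b a := by
    rw [← hd0, ← abs_mul, hdetP, hd1]
  have hP0 : 0 < |P.det| := abs_pos.mpr hPne
  have hτ1 : 0 ≤ τ := hτ.1
  calc ell R a b ^ (1 - τ) * ell R b a ^ τ
      = |P.det| ^ τ * ell R a b := by
        rw [← habsP, Real.mul_rpow hP0.le hr0.le, Real.rpow_sub hr0, Real.rpow_one]
        field_simp
    _ ≤ |((1 - τ) • ContinuousLinearMap.id ℝ E + τ • P).det| * |A0.det| := by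
        rw [hd0]
        exact mul_le_mul_of_nonneg_right key hr0.le

end Vale.Agent.Lib.P084T
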